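import Mathlib
import Vale.Agent.Lib.P226.Cells

/-!
P226 (Gaussian propeller conjecture): the conjectured inequality holds, in every dimension and
for every number of cells, for families of pairwise disjoint measurable sets (in particular
measurable partitions) all of whose cells have Gaussian measure at most `1/7`.
-/

namespace Vale.Agent.Results.P226.SmallCells

open MeasureTheory ProbabilityTheory

theorem result (d k : ℕ) (A : Fin k → Set (EuclideanSpace ℝ (Fin d)))
    (hA : ∀ i, MeasurableSet (A i))
    (hdisj : Pairwise (Function.onFun Disjoint A))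
    (hsmall : ∀ i, stdGaussian (EuclideanSpace ℝ (Fin d)) (A i) ≤ 1 / 7) :
    ∑ i, ‖∫ x in A i, x ∂(stdGaussian (EuclideanSpace ℝ (Fin d)))‖ ^ 2
      ≤ 9 / (8 * Real.pi) := by
  refine Vale.Agent.Lib.P226.sum_le_of_cells A hA hdisj (by positivity) (fun i => ?_)
  apply Vale.Agent.Lib.P226.cell_small
  have h := ENNReal.toReal_mono (by norm_num) (hsmall i)
  have e : ((1 : ENNReal) / 7).toReal = 1 / 7 := by
    rw [ENNReal.toReal_div]; norm_num
  rw [e] at h
  exact h

end Vale.Agent.Results.P226.SmallCells
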