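import Mathlib
import Vale.Agent.Lib.P226.Cells

/-!
P226 (Gaussian propeller conjecture): a bound uniform in the dimension and in the number of
cells. For every finite family of pairwise disjoint measurable sets of `ℝ^d` (in particular
every finite measurable partition) the sum of squared norms of the Gaussian first moments is at
most `41/100`.
-/

namespace Vale.Agent.Results.P226.UniformBound

open MeasureTheory ProbabilityTheory

theorem result (d k : ℕ) (A : Fin k → Set (EuclideanSpace ℝ (Fin d)))
    (hA : ∀ i, MeasurableSet (A i))
    (hdisj : Pairwise (Function.onFun Disjoint A)) :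
    ∑ i, ‖∫ x in A i, x ∂(stdGaussian (EuclideanSpace ℝ (Fin d)))‖ ^ 2 ≤ 41 / 100 :=
  Vale.Agent.Lib.P226.sum_le_of_cells A hA hdisj (by norm_num)
    (fun i => Vale.Agent.Lib.P226.cell_general (A i))

end Vale.Agent.Results.P226.UniformBound
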